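import Vale.Agent.P281.H64.TK.Defs

/-!
# P281, block AB (helper152), dimension d, part 4: product charts of a submersion.
-/

open Set Filter Metric
open scoped Topology ContDiff Manifold

noncomputable section

namespace Vale.Agent.P281.H152.K
open H64 H64.TK

/-- linear algebra -/
theorem exists_compl {p d : ℕ} (A : Cm (p + d) →L[ℂ] Cm p) (hA : Function.Surjective A) :
    ∃ (l : Cm (p + d) →L[ℂ] Cm d) (L : Cm (p + d) ≃L[ℂ] (Cm p × Cm d)), ∀ u, L u = (A u, l u) := by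
  have h1 : Module.finrank ℂ (LinearMap.ker (A : Cm (p + d) →ₗ[ℂ] Cm p)) = d := by
    have h2 := LinearMap.finrank_range_add_finrank_ker (A : Cm (p + d) →ₗ[ℂ] Cm p)
    have h3 : LinearMap.range (A : Cm (p + d) →ₗ[ℂ] Cm p) = ⊤ := LinearMap.range_eq_top.2 hA
    rw [h3, finrank_top] at h2
    simp only [Module.finrank_fin_fun] at h2
    omega
  let K := LinearMap.ker (A : Cm (p + d) →ₗ[ℂ] Cm p)
  obtain ⟨g, hg⟩ := K.subtype.exists_leftInverse_of_injective (by simp)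
  let e : K ≃ₗ[ℂ] Cm d := LinearEquiv.ofFinrankEq K (Cm d) (by
    rw [Module.finrank_fin_fun]; exact h1)
  let l : Cm (p + d) →ₗ[ℂ] Cm d := e.toLinearMap.comp g
  let B : Cm (p + d) →ₗ[ℂ] (Cm p × Cm d) := (A : Cm (p + d) →ₗ[ℂ] Cm p).prod l
  have hB : Function.Injective B := by
    rw [injective_iff_map_eq_zero]
    intro u hu
    have h2 : A u = 0 := congrArg Prod.fst hu
    have h3 : e (g u) = 0 := congrArg Prod.snd hu
    have h4 : g u = 0 := by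
      have := e.map_eq_zero_iff.1 h3
      exact this
    have hu' : u ∈ K := LinearMap.mem_ker.2 h2
    have h5 : g (K.subtype ⟨u, hu'⟩) = ⟨u, hu'⟩ := LinearMap.congr_fun hg ⟨u, hu'⟩
    have h6 : g u = ⟨u, hu'⟩ := h5
    rw [h4] at h6
    exact (congrArg Subtype.val h6).symm
  let E := LinearMap.linearEquivOfInjective B hB (by
    simp [Module.finrank_prod])
  exact ⟨LinearMap.toContinuousLinearMap l, E.toContinuousLinearEquiv, fun u => rfl⟩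

variable {p n : ℕ} {Z Y : Type} [TopologicalSpace Z] [ChartedSpace (Cm n) Z]
  [IsManifold 𝓘(ℂ, Cm n) ω Z] [TopologicalSpace Y] [ChartedSpace (Cm p) Y]
  [IsManifold 𝓘(ℂ, Cm p) ω Y]

/-- the derivative in charts is surjective -/
theorem surj_in_charts {f : Z → Y}
    (hf : ContMDiff 𝓘(ℂ, Cm n) 𝓘(ℂ, Cm p) ω f) {χ : OpenPartialHomeomorph Y (Cm p)}
    (hχ : χ ∈ atlas (Cm p) Y) {φ : OpenPartialHomeomorph Z (Cm n)} (hφ : φ ∈ atlas (Cm n) Z)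
    {x : Z} (hxφ : x ∈ φ.source) (hx : f x ∈ χ.source)
    (hs : Function.Surjective (mfderiv 𝓘(ℂ, Cm n) 𝓘(ℂ, Cm p) f x)) :
    ContDiffAt ℂ ω (fun u => χ (f (φ.symm u))) (φ x) ∧
      Function.Surjective (fderiv ℂ (fun u => χ (f (φ.symm u))) (φ x)) := by
  have hχm : χ ∈ IsManifold.maximalAtlas 𝓘(ℂ, Cm p) ω Y :=
    IsManifold.subset_maximalAtlas hχ
  have hφm : φ ∈ IsManifold.maximalAtlas 𝓘(ℂ, Cm n) ω Z :=
    IsManifold.subset_maximalAtlas hφ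
  have hφx : φ.symm (φ x) = x := φ.left_inv hxφ
  have h1 : ContMDiffAt 𝓘(ℂ, Cm n) 𝓘(ℂ, Cm n) ω φ.symm (φ x) :=
    contMDiffAt_symm_of_mem_maximalAtlas hφm (φ.map_source hxφ)
  have h1' : ContMDiffAt 𝓘(ℂ, Cm n) 𝓘(ℂ, Cm n) ω φ x :=
    contMDiffAt_of_mem_maximalAtlas hφm hxφ
  have h2 : ContMDiffAt 𝓘(ℂ, Cm p) 𝓘(ℂ, Cm p) ω χ (f x) :=
    contMDiffAt_of_mem_maximalAtlas hχm hx
  have h2' : ContMDiffAt 𝓘(ℂ, Cm p) 𝓘(ℂ, Cm p) ω χ.symm (χ (f x)) :=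
    contMDiffAt_symm_of_mem_maximalAtlas hχm (χ.map_source hx)
  have h3 : ContMDiffAt 𝓘(ℂ, Cm n) 𝓘(ℂ, Cm p) ω (fun u => f (φ.symm u)) (φ x) := by
    refine ContMDiffAt.comp (g := f) _ ?_ h1
    exact hf _
  have h4 : ContMDiffAt 𝓘(ℂ, Cm n) 𝓘(ℂ, Cm p) ω (fun u => χ (f (φ.symm u))) (φ x) := by
    refine ContMDiffAt.comp (g := χ) _ ?_ h3
    rw [hφx]
    exact h2
  have h5 := h4
  rw [contMDiffAt_iff_contDiffAt] at h5
  refine ⟨h5, ?_⟩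
  have hω : (ω : WithTop ℕ∞) ≠ 0 := by simp
  -- the derivative of the charts
  have k1 : Function.Surjective (mfderiv 𝓘(ℂ, Cm p) 𝓘(ℂ, Cm p) χ (f x)) := by
    have e1 : (fun u => χ (χ.symm u)) =ᶠ[𝓝 (χ (f x))] id := by
      filter_upwards [χ.open_target.mem_nhds (χ.map_source hx)] with u hu
      exact χ.right_inv hu
    have e2 : mfderiv 𝓘(ℂ, Cm p) 𝓘(ℂ, Cm p) (fun u => χ (χ.symm u)) (χ (f x)) =
        ContinuousLinearMap.id ℂ (TangentSpace 𝓘(ℂ, Cm p) (χ (f x))) := by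
      rw [e1.mfderiv_eq]; exact mfderiv_id
    have hc : χ.symm (χ (f x)) = f x := χ.left_inv hx
    have e3 : MDifferentiableAt 𝓘(ℂ, Cm p) 𝓘(ℂ, Cm p) χ (χ.symm (χ (f x))) := by
      rw [hc]; exact h2.mdifferentiableAt hω
    have e4 := mfderiv_comp (χ (f x)) e3 (h2'.mdifferentiableAt hω)
    intro v
    refine ⟨mfderiv 𝓘(ℂ, Cm p) 𝓘(ℂ, Cm p) χ.symm (χ (f x)) v, ?_⟩
    have e5 : mfderiv 𝓘(ℂ, Cm p) 𝓘(ℂ, Cm p) (χ ∘ χ.symm) (χ (f x)) v = v := by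
      have : (χ ∘ χ.symm : Cm p → Cm p) = fun u => χ (χ.symm u) := rfl
      rw [this, e2]; rfl
    rw [e4] at e5
    rw [hc] at e5
    exact e5
  have k2 : Function.Surjective (mfderiv 𝓘(ℂ, Cm n) 𝓘(ℂ, Cm n) φ.symm (φ x)) := by
    have e1 : (fun u => φ.symm (φ u)) =ᶠ[𝓝 x] id := by
      filter_upwards [φ.open_source.mem_nhds hxφ] with u hu
      exact φ.left_inv hu
    have e2 : mfderiv 𝓘(ℂ, Cm n) 𝓘(ℂ, Cm n) (fun u => φ.symm (φ u)) x =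
        ContinuousLinearMap.id ℂ (TangentSpace 𝓘(ℂ, Cm n) x) := by
      rw [e1.mfderiv_eq]; exact mfderiv_id
    have e4 := mfderiv_comp x (h1.mdifferentiableAt hω) (h1'.mdifferentiableAt hω)
    intro v
    refine ⟨mfderiv 𝓘(ℂ, Cm n) 𝓘(ℂ, Cm n) φ x v, ?_⟩
    have e5 : mfderiv 𝓘(ℂ, Cm n) 𝓘(ℂ, Cm n) (φ.symm ∘ φ) x v = v := by
      have : (φ.symm ∘ φ : Z → Z) = fun u => φ.symm (φ u) := rfl
      rw [this, e2]; rfl
    rw [e4] at e5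
    exact e5
  have hmf : MDifferentiableAt 𝓘(ℂ, Cm n) 𝓘(ℂ, Cm p) f x := (hf x).mdifferentiableAt hω
  have k3 : mfderiv 𝓘(ℂ, Cm n) 𝓘(ℂ, Cm p) (fun u => χ (f (φ.symm u))) (φ x) =
      (mfderiv 𝓘(ℂ, Cm p) 𝓘(ℂ, Cm p) χ (f x)).comp
        ((mfderiv 𝓘(ℂ, Cm n) 𝓘(ℂ, Cm p) f x).comp
          (mfderiv 𝓘(ℂ, Cm n) 𝓘(ℂ, Cm n) φ.symm (φ x))) := by
    have a1 : HasMFDerivAt 𝓘(ℂ, Cm n) 𝓘(ℂ, Cm n) φ.symm (φ x)
        (mfderiv 𝓘(ℂ, Cm n) 𝓘(ℂ, Cm n) φ.symm (φ x)) := (h1.mdifferentiableAt hω).hasMFDerivAt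
    have a2 : HasMFDerivAt 𝓘(ℂ, Cm n) 𝓘(ℂ, Cm p) f (φ.symm (φ x))
        (mfderiv 𝓘(ℂ, Cm n) 𝓘(ℂ, Cm p) f x) := by
      rw [hφx]; exact hmf.hasMFDerivAt
    have a3 := HasMFDerivAt.comp (φ x) a2 a1
    have a4 : HasMFDerivAt 𝓘(ℂ, Cm p) 𝓘(ℂ, Cm p) χ ((f ∘ φ.symm) (φ x))
        (mfderiv 𝓘(ℂ, Cm p) 𝓘(ℂ, Cm p) χ (f x)) := by
      have : (f ∘ φ.symm) (φ x) = f x := by
        show f (φ.symm (φ x)) = f x
        rw [hφx]
      rw [this]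
      exact (h2.mdifferentiableAt hω).hasMFDerivAt
    exact (HasMFDerivAt.comp (φ x) a4 a3).mfderiv
  have k4 : Function.Surjective (mfderiv 𝓘(ℂ, Cm n) 𝓘(ℂ, Cm p) (fun u => χ (f (φ.symm u)))
      (φ x)) := by
    rw [k3]
    exact k1.comp (hs.comp k2)
  rw [mfderiv_eq_fderiv] at k4
  exact k4

/-- a product chart of `Z` over the chart `χ` of `Y` -/
structure IsProd {p d : ℕ} {Z Y : Type} [TopologicalSpace Z] [ChartedSpace (Cm (p + d)) Z]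
    [TopologicalSpace Y] (f : Z → Y) (χ : OpenPartialHomeomorph Y (Cm p))
    (c : OpenPartialHomeomorph Z (Cm p × Cm d)) : Prop where
  fst : ∀ x ∈ c.source, f x ∈ χ.source ∧ (c x).1 = χ (f x)
  hol : ContMDiffOn 𝓘(ℂ, Cm (p + d)) 𝓘(ℂ, Cm p × Cm d) ω c c.source
  symm_hol : ContMDiffOn 𝓘(ℂ, Cm p × Cm d) 𝓘(ℂ, Cm (p + d)) ω c.symm c.target

section
variable {p d : ℕ} {Z Y : Type} [TopologicalSpace Z] [ChartedSpace (Cm (p + d)) Z]
  [IsManifold 𝓘(ℂ, Cm (p + d)) ω Z] [TopologicalSpace Y] [ChartedSpace (Cm p) Y]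
  [IsManifold 𝓘(ℂ, Cm p) ω Y]

/-- product charts exist where `f` is a submersion -/
theorem exists_prodChart {f : Z → Y}
    (hf : ContMDiff 𝓘(ℂ, Cm (p + d)) 𝓘(ℂ, Cm p) ω f) {χ : OpenPartialHomeomorph Y (Cm p)}
    (hχ : χ ∈ atlas (Cm p) Y) {x : Z} (hx : f x ∈ χ.source)
    (hs : Function.Surjective (mfderiv 𝓘(ℂ, Cm (p + d)) 𝓘(ℂ, Cm p) f x)) :
    ∃ c : OpenPartialHomeomorph Z (Cm p × Cm d), x ∈ c.source ∧ IsProd f χ c := by
  set φ := chartAt (Cm (p + d)) x with hφdef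
  have hφ : φ ∈ atlas (Cm (p + d)) Z := chart_mem_atlas _ x
  have hxφ : x ∈ φ.source := mem_chart_source _ x
  have hφm : φ ∈ IsManifold.maximalAtlas 𝓘(ℂ, Cm (p + d)) ω Z :=
    IsManifold.subset_maximalAtlas hφ
  obtain ⟨hG, hG'⟩ := surj_in_charts hf hχ hφ hxφ hx hs
  set G : Cm (p + d) → Cm p := fun u => χ (f (φ.symm u)) with hGdef
  obtain ⟨l, L, hL⟩ := exists_compl _ hG'
  have hω : (ω : WithTop ℕ∞) ≠ 0 := by simp
  set H : Cm (p + d) → Cm p × Cm d := fun u => (G u, l u) with hHdef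
  have hH : ContDiffAt ℂ ω H (φ x) := hG.prodMk l.contDiff.contDiffAt
  have hH' : HasFDerivAt H (L : Cm (p + d) →L[ℂ] Cm p × Cm d) (φ x) := by
    have h1 : HasFDerivAt G (fderiv ℂ G (φ x)) (φ x) := (hG.differentiableAt hω).hasFDerivAt
    have h2 := h1.prodMk (l.hasFDerivAt (x := φ x))
    have h3 : (L : Cm (p + d) →L[ℂ] Cm p × Cm d) = (fderiv ℂ G (φ x)).prod l := by
      ext1 u
      exact hL u
    rw [h3]
    exact h2
  set e := hH.toOpenPartialHomeomorph H hH' hω with he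
  have hex : φ x ∈ e.source := hH.mem_toOpenPartialHomeomorph_source hH' hω
  have hcoe : ∀ u, e u = H u := fun u => rfl
  have hes : ContDiffAt ℂ ω e.symm (H (φ x)) := hH.to_localInverse hH' hω
  set c0 : OpenPartialHomeomorph Z (Cm p × Cm d) := φ ≫ₕ e with hc0
  have hxc : x ∈ c0.source := by
    rw [hc0, OpenPartialHomeomorph.trans_source]
    exact ⟨hxφ, hex⟩
  have h0 : c0 x = H (φ x) := rfl
  -- `c0` and its inverse are analytic near `x`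
  have hA : ContMDiffAt 𝓘(ℂ, Cm (p + d)) 𝓘(ℂ, Cm p × Cm d) ω c0 x := by
    have h1 : ContMDiffAt 𝓘(ℂ, Cm (p + d)) 𝓘(ℂ, Cm (p + d)) ω φ x :=
      contMDiffAt_of_mem_maximalAtlas hφm hxφ
    exact ContMDiffAt.comp (g := H) x hH.contMDiffAt h1
  have hB : ContMDiffAt 𝓘(ℂ, Cm p × Cm d) 𝓘(ℂ, Cm (p + d)) ω c0.symm (c0 x) := by
    have h1 : ContMDiffAt 𝓘(ℂ, Cm p × Cm d) 𝓘(ℂ, Cm (p + d)) ω e.symm (c0 x) := hes.contMDiffAt
    have h2 : ContMDiffAt 𝓘(ℂ, Cm (p + d)) 𝓘(ℂ, Cm (p + d)) ω φ.symm (e.symm (c0 x)) := by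
      have h3 : e.symm (c0 x) = φ x := e.left_inv hex
      rw [h3]
      exact contMDiffAt_symm_of_mem_maximalAtlas hφm (φ.map_source hxφ)
    exact ContMDiffAt.comp (g := φ.symm) (c0 x) h2 h1
  have hA1 := (contMDiffAt_iff_contMDiffAt_nhds (by simp)).1 hA
  have hB1 := (contMDiffAt_iff_contMDiffAt_nhds (by simp)).1 hB
  have hB2 : ∀ᶠ z in 𝓝 x, ContMDiffAt 𝓘(ℂ, Cm p × Cm d) 𝓘(ℂ, Cm (p + d)) ω c0.symm (c0 z) :=
    (c0.continuousAt hxc).eventually hB1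
  have hC : ∀ᶠ z in 𝓝 x, f z ∈ χ.source :=
    hf.continuous.continuousAt (χ.open_source.mem_nhds hx)
  obtain ⟨W, hW, hWo, hxW⟩ := _root_.eventually_nhds_iff.1 (hA1.and (hB2.and hC))
  refine ⟨c0.restrOpen W hWo, ⟨hxc, hxW⟩, ⟨?_, ?_, ?_⟩⟩
  · rintro z ⟨hz, hzW⟩
    refine ⟨(hW z hzW).2.2, ?_⟩
    show χ (f (φ.symm (φ z))) = χ (f z)
    rw [hc0, OpenPartialHomeomorph.trans_source] at hz
    rw [φ.left_inv hz.1]
  · rintro z ⟨hz, hzW⟩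
    exact (hW z hzW).1.contMDiffWithinAt
  · intro q hq
    have h1 : c0.symm q ∈ c0.source ∩ W := (c0.restrOpen W hWo).map_target hq
    have h2 : c0 (c0.symm q) = q := (c0.restrOpen W hWo).right_inv hq
    have h3 := (hW _ h1.2).2.1
    rw [h2] at h3
    exact h3.contMDiffWithinAt

end

section
variable {p d : ℕ} {Z Y : Type} [TopologicalSpace Z] [ChartedSpace (Cm (p + d)) Z]
  [TopologicalSpace Y] {f : Z → Y} {χ : OpenPartialHomeomorph Y (Cm p)}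

/-- `(t, z) ↦ (t, a (z - z₀))` -/
def aff (p : ℕ) {d : ℕ} (a : ℂ) (ha : a ≠ 0) (z₀ : Cm d) : (Cm p × Cm d) ≃ₜ (Cm p × Cm d) where
  toFun q := (q.1, a • (q.2 - z₀))
  invFun q := (q.1, a⁻¹ • q.2 + z₀)
  left_inv q := by
    refine Prod.ext rfl ?_
    show a⁻¹ • (a • (q.2 - z₀)) + z₀ = q.2
    rw [inv_smul_smul₀ ha, sub_add_cancel]
  right_inv q := by
    refine Prod.ext rfl ?_
    show a • (a⁻¹ • q.2 + z₀ - z₀) = q.2
    rw [add_sub_cancel_right, smul_inv_smul₀ ha]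
  continuous_toFun := by fun_prop
  continuous_invFun := by fun_prop

theorem IsProd.aff {c : OpenPartialHomeomorph Z (Cm p × Cm d)} (hc : IsProd f χ c) {a : ℂ}
    (ha : a ≠ 0) (z₀ : Cm d) : IsProd f χ (c.transHomeomorph (K.aff p a ha z₀)) := by
  refine ⟨fun x hx => ⟨(hc.fst x hx).1, (hc.fst x hx).2⟩, ?_, ?_⟩
  · intro x hx
    have h1 : ContDiff ℂ ω (fun q : Cm p × Cm d => (q.1, a • (q.2 - z₀))) := by fun_prop
    exact ContMDiffWithinAt.comp (t := univ)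
      (g := fun q : Cm p × Cm d => (q.1, a • (q.2 - z₀))) x
      (h1.contMDiff.contMDiffAt.contMDiffWithinAt) (hc.hol x hx) (fun _ _ => mem_univ _)
  · intro q hq
    have h1 : ContDiff ℂ ω (fun q : Cm p × Cm d => (q.1, a⁻¹ • q.2 + z₀)) := by fun_prop
    exact ContMDiffWithinAt.comp (t := c.target) (g := c.symm) q (hc.symm_hol _ hq)
      (h1.contMDiff.contMDiffAt.contMDiffWithinAt) (fun _ h => h)

/-- a product chart centred at `x`, large in the second direction -/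
theorem IsProd.center {c : OpenPartialHomeomorph Z (Cm p × Cm d)} (hc : IsProd f χ c) {x : Z}
    (hx : x ∈ c.source) : ∃ (c' : OpenPartialHomeomorph Z (Cm p × Cm d)) (δ : ℝ), 0 < δ ∧
      IsProd f χ c' ∧ x ∈ c'.source ∧ c' x = (χ (f x), 0) ∧
      ball (χ (f x)) δ ×ˢ ball (0 : Cm d) 3 ⊆ c'.target := by
  have hx2 : (c x).1 = χ (f x) := (hc.fst x hx).2
  obtain ⟨δ, hδ, hball⟩ := Metric.isOpen_iff.1 c.open_target (c x) (c.map_source hx)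
  have ha : ((3 / δ : ℝ) : ℂ) ≠ 0 := by
    rw [Ne, Complex.ofReal_eq_zero]; positivity
  refine ⟨_, δ, hδ, hc.aff ha (c x).2, hx, ?_, ?_⟩
  · show ((c x).1, ((3 / δ : ℝ) : ℂ) • ((c x).2 - (c x).2)) = _
    rw [sub_self, smul_zero, hx2]
  · rintro ⟨t, z⟩ ⟨ht, hz⟩
    show (t, ((3 / δ : ℝ) : ℂ)⁻¹ • z + (c x).2) ∈ c.target
    refine hball ?_
    rw [mem_ball, Prod.dist_eq, max_lt_iff]
    refine ⟨by rw [hx2]; exact ht, ?_⟩
    rw [mem_ball_zero_iff] at hz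
    show dist (((3 / δ : ℝ) : ℂ)⁻¹ • z + (c x).2) (c x).2 < δ
    rw [dist_eq_norm, add_sub_cancel_right, norm_smul, norm_inv, Complex.norm_real,
      Real.norm_of_nonneg (by positivity), inv_div]
    calc δ / 3 * ‖z‖ < δ / 3 * 3 := by gcongr
      _ = δ := by ring

end

end Vale.Agent.P281.H152.K
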