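import Vale.Agent.P281.H152.K.Fam
import Vale.Agent.P300.H673.UC

/-!
# P281, block AB (helper152), dimension d, part 3: with the universal covering of the model fibre.
-/

open Set Filter Metric Vale.Agent.P281 Vale.Agent.P281.H713
open scoped Topology ContDiff Manifold

noncomputable section

namespace Vale.Agent.P281.H152.K
open H64 H64.TK

/-- The universal covering of a connected surface. -/
theorem exists_uc (d : ℕ) (F : Type) [TopologicalSpace F] [T2Space F] [ConnectedSpace F]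
    [ChartedSpace (Cm d) F] :
    ∃ (E Γ : Type) (_ : TopologicalSpace E) (_ : T2Space E) (_ : SimplyConnectedSpace E)
      (_ : Group Γ) (_ : MulAction Γ E) (_ : ContinuousConstSMul Γ E), Nonempty (UC E Γ F) := by
  obtain ⟨n, hn⟩ := Vale.Agent.P300.H673.exists_openEmbedding (Cm d) F
  obtain ⟨E, Γ, tE, gΓ, aE, π, h1, h2, h3, h4, h5, h6, h7⟩ := Vale.Agent.P223.X.U.main n F hn
  exact ⟨E, Γ, tE, h2, h1, gΓ, aE, ⟨h3⟩, ⟨⟨π, h5, h6, h7, h4⟩⟩⟩

variable {p d : ℕ} {Z Y F : Type} [TopologicalSpace Z] [ChartedSpace (Cm (p + d)) Z]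
  [TopologicalSpace Y] [ChartedSpace (Cm p) Y] [TopologicalSpace F] [T2Space F]
  [ConnectedSpace F] [ChartedSpace (Cm d) F] {f : Z → Y} {χ : OpenPartialHomeomorph Y (Cm p)}

theorem exists_model (P : Pre p d (F := F) f χ) (hχ : χ ∈ atlas (Cm p) Y) :
    ∃ (E Γ : Type) (_ : TopologicalSpace E) (_ : T2Space E) (_ : SimplyConnectedSpace E)
      (_ : Group Γ) (_ : MulAction Γ E) (_ : ContinuousConstSMul Γ E) (𝓕 : Fam p d E Γ)
      (q : Cm p → E → Z), Model (n := p + d) f 𝓕 χ q ∧ 𝓕.T = P.T := by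
  obtain ⟨E, Γ, i1, i2, i3, i4, i5, i6, ⟨U⟩⟩ := exists_uc d F
  choose σ h1 h2 using fun i => exists_lift P U i
  exact ⟨E, Γ, i1, i2, i3, i4, i5, i6, fam P U σ fun i => ⟨h1 i, h2 i⟩, _,
    model P U hχ σ fun i => ⟨h1 i, h2 i⟩, rfl⟩

end Vale.Agent.P281.H152.K
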