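import Vale.Agent.P281.H64.TK.SpecG

/-!
# P281, block AB (helper152), dimension d, part 1: from a trivialised family with product charts, and the universal
covering of the model fibre, to `Fam` and `Model`.
-/

open Set Filter Metric Vale.Agent.P281 Vale.Agent.P281.H713
open scoped Topology ContDiff Manifold

noncomputable section

namespace Vale.Agent.P281.H152.K
open H64 H64.TK

/-- The family `f` over `T`, trivialised by `Φ`, `ρ`, with product charts `c i`. -/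
structure Pre (p d : ℕ) {Z Y F : Type} [TopologicalSpace Z] [ChartedSpace (Cm (p + d)) Z]
    [TopologicalSpace Y] [TopologicalSpace F] (f : Z → Y) (χ : OpenPartialHomeomorph Y (Cm p)) where
  T : Set (Cm p)
  isOpen : IsOpen T
  conv : Convex ℝ T
  t₀ : Cm p
  mem : t₀ ∈ T
  sub : T ⊆ χ.target
  Φ : Cm p → F → Z
  ρ : Z → F
  f_Φ : ∀ t ∈ T, ∀ m, f (Φ t m) = χ.symm t
  ρ_Φ : ∀ t ∈ T, ∀ m, ρ (Φ t m) = m
  Φ_ρ : ∀ x, f x ∈ χ.source → χ (f x) ∈ T → Φ (χ (f x)) (ρ x) = x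
  ρ_cont : ∀ x, f x ∈ χ.source → χ (f x) ∈ T → ContinuousAt ρ x
  Φ_cont : ∀ t ∈ T, ∀ m, ContinuousAt (fun q : Cm p × F => Φ q.1 q.2) (t, m)
  N : ℕ
  c : Fin N → OpenPartialHomeomorph Z (Cm p × Cm d)
  c_target : ∀ i, T ×ˢ ball (0 : Cm d) 3 ⊆ (c i).target
  c_fst : ∀ i, ∀ x ∈ (c i).source, f x ∈ χ.source ∧ (c i x).1 = χ (f x)
  c_hol : ∀ i, ContMDiffOn 𝓘(ℂ, Cm (p + d)) 𝓘(ℂ, Cm p × Cm d) ω (c i) (c i).source
  c_symm_hol : ∀ i, ContMDiffOn 𝓘(ℂ, Cm p × Cm d) 𝓘(ℂ, Cm (p + d)) ω (c i).symm (c i).target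
  cover : ∀ x, f x ∈ χ.source → χ (f x) ∈ T →
    ∃ (i : Fin N) (z : Cm d), ‖z‖ < 1 ∧ (c i).symm (χ (f x), z) = x
  smooth : ∀ i j, ∀ t ∈ T, ∀ s ∈ T, ∀ z ∈ ball (0 : Cm d) 3, ∀ w ∈ ball (0 : Cm d) 3,
    ρ ((c i).symm (t, z)) = ρ ((c j).symm (s, w)) → ∃ ψ : Cm d → Cm d, ContDiffAt ℝ ∞ ψ z ∧ ψ z = w ∧
      0 < (fderiv ℝ ψ z).det ∧
      ∀ᶠ u in 𝓝 z, ρ ((c i).symm (t, u)) = ρ ((c j).symm (s, ψ u))

section
variable {p d : ℕ} {Z Y F : Type} [TopologicalSpace Z] [ChartedSpace (Cm (p + d)) Z]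
  [TopologicalSpace Y] [TopologicalSpace F] {f : Z → Y} {χ : OpenPartialHomeomorph Y (Cm p)}
  (P : Pre p d (F := F) f χ)

namespace Pre

/-- the section of the product chart `i` -/
abbrev s (i : Fin P.N) (q : Cm p × Cm d) : Z := (P.c i).symm q

/-- the same in the model fibre -/
abbrev g (i : Fin P.N) (q : Cm p × Cm d) : F := P.ρ (P.s i q)

variable {P}

theorem s_mem {i : Fin P.N} {q : Cm p × Cm d} (h : q ∈ P.T ×ˢ ball (0 : Cm d) 3) :
    P.s i q ∈ (P.c i).source := (P.c i).map_target (P.c_target i h)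

theorem f_s {i : Fin P.N} {q : Cm p × Cm d} (h : q ∈ P.T ×ˢ ball (0 : Cm d) 3) :
    f (P.s i q) ∈ χ.source ∧ χ (f (P.s i q)) = q.1 := by
  obtain ⟨h1, h2⟩ := P.c_fst i _ (s_mem h)
  refine ⟨h1, ?_⟩
  rw [← h2, (P.c i).right_inv (P.c_target i h)]

theorem f_s' {i : Fin P.N} {q : Cm p × Cm d} (h : q ∈ P.T ×ˢ ball (0 : Cm d) 3) :
    f (P.s i q) = χ.symm q.1 := by
  rw [← (f_s h).2, χ.left_inv (f_s h).1]

theorem Φ_g {i : Fin P.N} {q : Cm p × Cm d} (h : q ∈ P.T ×ˢ ball (0 : Cm d) 3) :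
    P.Φ q.1 (P.g i q) = P.s i q := by
  have h1 := f_s (P := P) (i := i) h
  have h2 := P.Φ_ρ (P.s i q) h1.1 (by rw [h1.2]; exact h.1)
  rw [h1.2] at h2
  exact h2

theorem s_cont {i : Fin P.N} {q : Cm p × Cm d} (h : q ∈ P.T ×ˢ ball (0 : Cm d) 3) :
    ContinuousAt (P.s i) q := (P.c i).continuousAt_symm (P.c_target i h)

theorem g_cont {i : Fin P.N} {q : Cm p × Cm d} (h : q ∈ P.T ×ˢ ball (0 : Cm d) 3) :
    ContinuousAt (P.g i) q := by
  have h1 := f_s (P := P) (i := i) h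
  exact ContinuousAt.comp (g := P.ρ) (P.ρ_cont _ h1.1 (by rw [h1.2]; exact h.1)) (s_cont h)

theorem eq_of_g {i j : Fin P.N} {q q' : Cm p × Cm d} (h : q ∈ P.T ×ˢ ball (0 : Cm d) 3)
    (h' : q' ∈ P.T ×ˢ ball (0 : Cm d) 3) (h1 : q.1 = q'.1) (h2 : P.g i q = P.g j q') :
    P.s i q = P.s j q' := by
  rw [← Φ_g h, ← Φ_g h', h1, h2]

theorem isOpen_dom : IsOpen (P.T ×ˢ ball (0 : Cm d) 3) := P.isOpen.prod isOpen_ball

/-- the points of `Φ t m` in the chart `i` -/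
theorem c_Φ {t : Cm p} (ht : t ∈ P.T) {m : F} {i : Fin P.N} (h : P.Φ t m ∈ (P.c i).source) :
    (P.c i (P.Φ t m)).1 = t := by
  rw [(P.c_fst i _ h).2, P.f_Φ t ht, χ.right_inv (P.sub ht)]

theorem Φ_mem {t : Cm p} (ht : t ∈ P.T) (m : F) :
    f (P.Φ t m) ∈ χ.source ∧ χ (f (P.Φ t m)) = t := by
  rw [P.f_Φ t ht]
  exact ⟨χ.map_target (P.sub ht), χ.right_inv (P.sub ht)⟩

end Pre

/-- the universal covering of the model fibre -/
structure UC (E Γ F : Type) [TopologicalSpace E] [Group Γ] [MulAction Γ E] [TopologicalSpace F] where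
  π : E → F
  cov : IsCoveringMap π
  surj : Function.Surjective π
  eq : ∀ x y, π x = π y ↔ ∃ γ : Γ, γ • x = y
  free : ∀ (γ : Γ) (x : E), γ • x = x → γ = 1

variable {E Γ : Type} [TopologicalSpace E] [Group Γ] [MulAction Γ E]
  (U : UC E Γ F)

namespace UC

theorem π_smul {U : UC E Γ F} (γ : Γ) (e : E) : U.π (γ • e) = U.π e :=
  ((U.eq e (γ • e)).2 ⟨γ, rfl⟩).symm

theorem locInj (U : UC E Γ F) (e : E) : ∃ W ∈ 𝓝 e, InjOn U.π W := by
  obtain ⟨φ, h1, h2⟩ := U.cov.isLocalHomeomorph e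
  refine ⟨φ.source, φ.open_source.mem_nhds h1, ?_⟩
  rw [h2]
  exact φ.injOn

/-- two continuous maps to `E` with the same projection, equal at one point, are equal near it -/
theorem eventually_eq {X : Type*} [TopologicalSpace X] {U : UC E Γ F} {a b : X → E} {x : X}
    (ha : ContinuousAt a x) (hb : ContinuousAt b x) (hab : a x = b x)
    (h : ∀ᶠ y in 𝓝 x, U.π (a y) = U.π (b y)) : ∀ᶠ y in 𝓝 x, a y = b y := by
  obtain ⟨W, hW, hinj⟩ := U.locInj (a x)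
  have h1 : ∀ᶠ y in 𝓝 x, a y ∈ W := ha hW
  have h2 : ∀ᶠ y in 𝓝 x, b y ∈ W := by
    have : W ∈ 𝓝 (b x) := by rw [← hab]; exact hW
    exact hb this
  filter_upwards [h, h1, h2] with y h3 h4 h5
  exact hinj h4 h5 h3

end UC

theorem exists_lift [T2Space E] (P : Pre p d (F := F) f χ) (U : UC E Γ F) (i : Fin P.N) :
    ∃ σ : Cm p × Cm d → E, (∀ q ∈ P.T ×ˢ ball (0 : Cm d) 3, ContinuousAt σ q) ∧
      ∀ q ∈ P.T ×ˢ ball (0 : Cm d) 3, U.π (σ q) = P.g i q := by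
  classical
  let A : Set (Cm p × Cm d) := P.T ×ˢ ball (0 : Cm d) 3
  have hA : Convex ℝ A := P.conv.prod (convex_ball 0 3)
  have hAo : IsOpen A := P.isOpen.prod isOpen_ball
  have h0 : (P.t₀, (0 : Cm d)) ∈ A := ⟨P.mem, by simp⟩
  have : ContractibleSpace A := hA.contractibleSpace ⟨_, h0⟩
  have : LocallyPathConnectedSpace A := hA.locallyPathConnectedSpace
  let fA : C(A, F) := ⟨fun q => P.g i q.1, by
    rw [continuous_iff_continuousAt]
    intro q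
    exact ContinuousAt.comp (g := P.g i) (Pre.g_cont q.2) continuousAt_subtype_val⟩
  obtain ⟨e₀, he₀⟩ := U.surj (fA ⟨_, h0⟩)
  obtain ⟨G, ⟨-, hG⟩, -⟩ := U.cov.existsUnique_continuousMap_lifts fA ⟨_, h0⟩ e₀ he₀
  refine ⟨fun q => if h : q ∈ A then G ⟨q, h⟩ else e₀, ?_, ?_⟩
  · intro q hq
    have h1 : ContinuousOn (fun q => if h : q ∈ A then G ⟨q, h⟩ else e₀) A := by
      rw [continuousOn_iff_continuous_domRestrict]
      refine G.continuous.congr ?_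
      intro x
      simp
    exact h1.continuousAt (hAo.mem_nhds hq)
  · intro q hq
    have hq' : q ∈ A := hq
    simp only [dif_pos hq']
    exact congrFun hG ⟨q, hq⟩

end

end Vale.Agent.P281.H152.K
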