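import Vale.Agent.P281.H152.K.Chart

/-!
# P281, block AB (helper152), dimension d, part 5: orientation preserving changes of parameters.
-/

open Set Filter Metric
open scoped Topology ContDiff Manifold

noncomputable section

namespace Vale.Agent.P281.H152.K
open H64 H64.TK

/-- the germ of `α` at `z` is the germ of `β` at `w` up to an orientation preserving
diffeomorphism -/
def Rel {d : ℕ} {X : Type*} (α : Cm d → X) (z : Cm d) (β : Cm d → X) (w : Cm d) : Prop :=
  ∃ ψ : Cm d → Cm d, ContDiffAt ℝ ∞ ψ z ∧ ψ z = w ∧ 0 < (fderiv ℝ ψ z).det ∧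
    ∀ᶠ u in 𝓝 z, α u = β (ψ u)

theorem Rel.trans {d : ℕ} {X : Type*} {α β γ : Cm d → X} {z w v : Cm d} (h : Rel α z β w) (h' : Rel β w γ v) :
    Rel α z γ v := by
  obtain ⟨ψ, a1, rfl, a3, a4⟩ := h
  obtain ⟨φ, b1, rfl, b3, b4⟩ := h'
  have hd : DifferentiableAt ℝ ψ z := a1.differentiableAt (by simp)
  have hd' : DifferentiableAt ℝ φ (ψ z) := b1.differentiableAt (by simp)
  refine ⟨fun u => φ (ψ u), ContDiffAt.comp (g := φ) z b1 a1, rfl, ?_, ?_⟩
  · rw [fderiv_fun_comp z hd' hd]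
    have h1 : ((fderiv ℝ φ (ψ z)).comp (fderiv ℝ ψ z)).det =
        (fderiv ℝ φ (ψ z)).det * (fderiv ℝ ψ z).det := LinearMap.det_comp _ _
    rw [h1]
    exact mul_pos b3 a3
  · filter_upwards [a4, a1.continuousAt.eventually b4] with u h1 h2
    rw [h1, h2]

theorem Rel.comp {d : ℕ} {X X' : Type*} {α β : Cm d → X} {z w : Cm d} (h : Rel α z β w) (g : X → X') :
    Rel (fun u => g (α u)) z (fun u => g (β u)) w := by
  obtain ⟨ψ, a1, a2, a3, a4⟩ := h
  refine ⟨ψ, a1, a2, a3, ?_⟩
  filter_upwards [a4] with u hu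
  rw [hu]

theorem Rel.congr {d : ℕ} {X : Type*} {α α' β β' : Cm d → X} {z w : Cm d} (h : Rel α z β w)
    (h1 : α =ᶠ[𝓝 z] α') (h2 : β =ᶠ[𝓝 w] β') : Rel α' z β' w := by
  obtain ⟨ψ, a1, rfl, a3, a4⟩ := h
  refine ⟨ψ, a1, rfl, a3, ?_⟩
  filter_upwards [a4, h1, a1.continuousAt.eventually h2] with u h4 h5 h6
  rw [← h5, h4, h6]

/-- the real determinant of the derivative of a holomorphic function -/
theorem det_fderiv {d : ℕ} {θ : Cm d → Cm d} {z : Cm d} (h : DifferentiableAt ℂ θ z) :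
    (fderiv ℝ θ z).det = ‖(fderiv ℂ θ z).det‖ ^ 2 := by
  have h1 : fderiv ℝ θ z = (fderiv ℂ θ z).restrictScalars ℝ :=
    (h.hasFDerivAt.restrictScalars ℝ).fderiv
  rw [h1]
  have h2 : ((fderiv ℂ θ z).restrictScalars ℝ).det =
      LinearMap.det ((fderiv ℂ θ z : Cm d →ₗ[ℂ] Cm d).restrictScalars ℝ) := rfl
  rw [h2, LinearMap.det_restrictScalars, Algebra.norm_complex_apply, Complex.normSq_eq_norm_sq]

variable {p d : ℕ} {Z Y : Type} [TopologicalSpace Z] [ChartedSpace (Cm (p + d)) Z]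
  [TopologicalSpace Y] {f : Z → Y} {χ : OpenPartialHomeomorph Y (Cm p)}

/-- transition maps of product charts -/
theorem trans_an {a b : OpenPartialHomeomorph Z (Cm p × Cm d)} (ha : IsProd f χ a)
    (hb : IsProd f χ b) {q : Cm p × Cm d} (hq : q ∈ a.target) (h : a.symm q ∈ b.source) :
    AnalyticAt ℂ (fun q => b (a.symm q)) q := by
  have h1 : ContMDiffAt 𝓘(ℂ, Cm p × Cm d) 𝓘(ℂ, Cm (p + d)) ω a.symm q :=
    ha.symm_hol.contMDiffAt (a.open_target.mem_nhds hq)
  have h2 : ContMDiffAt 𝓘(ℂ, Cm (p + d)) 𝓘(ℂ, Cm p × Cm d) ω b (a.symm q) :=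
    hb.hol.contMDiffAt (b.open_source.mem_nhds h)
  have h3 : ContMDiffAt 𝓘(ℂ, Cm p × Cm d) 𝓘(ℂ, Cm p × Cm d) ω (fun q => b (a.symm q)) q :=
    ContMDiffAt.comp (g := b) q h2 h1
  rw [contMDiffAt_iff_contDiffAt] at h3
  exact h3.analyticAt

/-- one direction -/
theorem slice_an {a b : OpenPartialHomeomorph Z (Cm p × Cm d)} (ha : IsProd f χ a)
    (hb : IsProd f χ b) {t : Cm p} {z w : Cm d} (hz : (t, z) ∈ a.target)
    (hw : (t, w) ∈ b.target) (h : a.symm (t, z) = b.symm (t, w)) :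
    AnalyticAt ℂ (fun u => (b (a.symm (t, u))).2) z ∧ (b (a.symm (t, z))).2 = w ∧
      ∀ᶠ u in 𝓝 z, a.symm (t, u) = b.symm (t, (b (a.symm (t, u))).2) := by
  have hs : a.symm (t, z) ∈ b.source := by rw [h]; exact b.map_target hw
  have h1 := trans_an ha hb hz hs
  have hc : ContinuousAt (fun u : Cm d => (t, u)) z := continuousAt_const.prodMk continuousAt_id
  refine ⟨?_, ?_, ?_⟩
  · have h2 : AnalyticAt ℂ (fun u => b (a.symm (t, u))) z :=
      AnalyticAt.fun_comp (f := fun u : Cm d => (t, u)) h1 (by fun_prop)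
    exact analyticAt_snd.comp h2
  · rw [h, b.right_inv hw]
  · have e1 : ∀ᶠ u in 𝓝 z, (t, u) ∈ a.target := hc (a.open_target.mem_nhds hz)
    have e2 : ∀ᶠ u in 𝓝 z, a.symm (t, u) ∈ b.source :=
      (ContinuousAt.comp (g := a.symm) (a.continuousAt_symm hz) hc)
        (b.open_source.mem_nhds hs)
    filter_upwards [e1, e2] with u h3 h4
    have h5 : (b (a.symm (t, u))).1 = t := by
      rw [(hb.fst _ h4).2, ← (ha.fst _ (a.map_target h3)).2, a.right_inv h3]
    have h6 : (t, (b (a.symm (t, u))).2) = b (a.symm (t, u)) := Prod.ext h5.symm rfl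
    rw [h6, b.left_inv h4]

/-- two product charts are related by a holomorphic change of the fibre coordinate -/
theorem rel_prod {a b : OpenPartialHomeomorph Z (Cm p × Cm d)} (ha : IsProd f χ a)
    (hb : IsProd f χ b) {t : Cm p} {z w : Cm d} (hz : (t, z) ∈ a.target)
    (hw : (t, w) ∈ b.target) (h : a.symm (t, z) = b.symm (t, w)) :
    Rel (fun u => a.symm (t, u)) z (fun u => b.symm (t, u)) w := by
  obtain ⟨h1, h2, h3⟩ := slice_an ha hb hz hw h
  obtain ⟨k1, k2, k3⟩ := slice_an hb ha hw hz h.symm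
  refine ⟨fun u => (b (a.symm (t, u))).2, ?_, h2, ?_, h3⟩
  · exact ((h1.contDiffAt (n := ∞)).restrict_scalars ℝ)
  · rw [det_fderiv h1.differentiableAt]
    have h4 : (fderiv ℂ (fun u => (b (a.symm (t, u))).2) z).det ≠ 0 := by
      intro h0
      have h5 : (fun u => (a (b.symm (t, (b (a.symm (t, u))).2))).2) =ᶠ[𝓝 z] fun u => u := by
        have hc : ContinuousAt (fun u : Cm d => (t, u)) z :=
          continuousAt_const.prodMk continuousAt_id
        filter_upwards [h3, hc (a.open_target.mem_nhds hz)] with u h6 h7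
        have h7' : (t, u) ∈ a.target := h7
        rw [← h6, a.right_inv h7']
      have h8 : fderiv ℂ (fun u => (a (b.symm (t, (b (a.symm (t, u))).2))).2) z =
          ContinuousLinearMap.id ℂ (Cm d) := by
        rw [h5.fderiv_eq]; exact fderiv_fun_id
      have h9 : DifferentiableAt ℂ (fun v => (a (b.symm (t, v))).2)
          ((fun u => (b (a.symm (t, u))).2) z) := by
        show DifferentiableAt ℂ _ ((b (a.symm (t, z))).2)
        rw [h2]
        exact k1.differentiableAt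
      have h10 := fderiv_fun_comp z h9 h1.differentiableAt
      rw [h8] at h10
      have h11 : (ContinuousLinearMap.id ℂ (Cm d)).det = 1 := LinearMap.det_id
      have h12 : ((fderiv ℂ (fun v => (a (b.symm (t, v))).2)
          ((fun u => (b (a.symm (t, u))).2) z)).comp
          (fderiv ℂ (fun u => (b (a.symm (t, u))).2) z)).det =
        (fderiv ℂ (fun v => (a (b.symm (t, v))).2)
          ((fun u => (b (a.symm (t, u))).2) z)).det *
          (fderiv ℂ (fun u => (b (a.symm (t, u))).2) z).det := LinearMap.det_comp _ _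
      rw [← h10, h11, h0, mul_zero] at h12
      exact one_ne_zero h12
    positivity

end Vale.Agent.P281.H152.K
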